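import Vale.Agent.P235.K5.Mix.Defs
import Vale.Agent.P235.X.H787.CGcore

/-!
P235, line K5/Mix, row [MC] from the collar of X/H787/CGcore (helper787).
-/

set_option autoImplicit false

namespace Vale.Agent.P235.K5.Mix.H787

open Vale.Agent.P235 Vale.Agent.P235.H134 Vale.Agent.P235.H56 Vale.Agent.P235.K5
open Vale.Agent.P235.K5.Mix

theorem mc : McStmt := by
  intro V _ d hd S h3 ρ hρ hle
  obtain ⟨F, h1, h2, h3, _⟩ := X.H787.cg d hd.self hd.symm hd.tri S h3 ρ
    (fun x _ => hρ.self x) (fun x _ y _ => hρ.symm x y) (fun x _ y _ z _ => hρ.tri x y z) hle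
  exact ⟨F, h1, h2, h3⟩

end Vale.Agent.P235.K5.Mix.H787
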